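import Mathlib
import Vale.Agent.Lib.P130B.Out.Main

/-!
# P130: Banach's problem, the form with an orthonormal basis of `L²₀`
-/

open MeasureTheory Filter Topology
open scoped ENNReal

namespace Vale.Agent.Results.P130.BanachBasis

/-- The Koopman operator `f ↦ f ∘ T` of a measure-preserving transformation, on complex `L²`. -/
noncomputable def koopman {Y : Type} [MeasurableSpace Y] {μ : Measure Y} (T : Y ≃ᵐ Y)
    (hT : MeasurePreserving T μ μ) (f : Lp ℂ 2 μ) : Lp ℂ 2 μ :=
  MemLp.toLp (fun y => f (T y)) ((Lp.memLp f).comp_measurePreserving hT)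

/-- The family `b n`, `n ∈ ℤ`, is an orthonormal basis of the closed subspace `S` of the Hilbert
space `H`: it is orthonormal and the closure of its linear span is `S`. -/
def IsOrthonormalBasisOf {H : Type} [NormedAddCommGroup H] [InnerProductSpace ℂ H] (b : ℤ → H)
    (S : Set H) : Prop :=
  Orthonormal ℂ b ∧ closure (Submodule.span ℂ (Set.range b) : Set H) = S

theorem koopman_eq {Y : Type} [MeasurableSpace Y] {μ : Measure Y} (T : Y ≃ᵐ Y)
    (hT : MeasurePreserving T μ μ) (f : Lp ℂ 2 μ) :
    koopman T hT f = Lp.compMeasurePreserving T hT f := by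
  apply Lp.ext
  exact (MemLp.coeFn_toLp _).trans (Lp.coeFn_compMeasurePreserving f hT).symm

/-- **Banach's problem.** There are a standard nonatomic probability space `(Y, μ)`, an invertible
measure-preserving `T : Y → Y` and an orthonormal basis `b n`, `n ∈ ℤ`, of `L²₀`, the subspace of
all `f` in `L²` with integral zero, such that `b (n + 1) = b n ∘ T` for all integers `n`. -/
theorem result : ∃ (Y : Type) (_ : MeasurableSpace Y) (_ : StandardBorelSpace Y)
    (μ : Measure Y) (_ : IsProbabilityMeasure μ) (_ : NullSingletonClass μ) (T : Y ≃ᵐ Y)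
    (hT : MeasurePreserving T μ μ) (b : ℤ → Lp ℂ 2 μ),
    IsOrthonormalBasisOf b {f | ∫ y, f y ∂μ = 0} ∧ ∀ n : ℤ, b (n + 1) = koopman T hT (b n) := by
  obtain ⟨Y, mY, sY, μ, pμ, nμ, T, hT, V, h1, h2⟩ := P130B.mainStmt
  refine ⟨Y, mY, sY, μ, pμ, nμ, T, hT, fun n => V (fourierLp (T := (1 : ℝ)) 2 n),
    ⟨(orthonormal_fourier (T := (1 : ℝ))).comp_linearIsometry V, ?_⟩, fun n => ?_⟩
  · have h3 : Set.range V = {f : Lp ℂ 2 μ | ∫ y, f y ∂μ = 0} := by
      ext f
      exact h2 f
    have h4 : (Submodule.span ℂ (Set.range fun n : ℤ => V (fourierLp (T := (1 : ℝ)) 2 n)) :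
        Set (Lp ℂ 2 μ)) =
        V '' (Submodule.span ℂ (Set.range (fourierLp (T := (1 : ℝ)) 2)) :
          Set (Lp ℂ 2 (AddCircle.haarAddCircle (T := (1 : ℝ))))) := by
      have h5 : (Set.range fun n : ℤ => V (fourierLp (T := (1 : ℝ)) 2 n)) =
          V.toLinearMap '' Set.range (fourierLp (T := (1 : ℝ)) 2) := by
        rw [← Set.range_comp]
        rfl
      rw [h5, ← Submodule.map_span]
      rfl
    have h6 : closure (Submodule.span ℂ (Set.range (fourierLp (T := (1 : ℝ)) 2)) :
        Set (Lp ℂ 2 (AddCircle.haarAddCircle (T := (1 : ℝ))))) = Set.univ := by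
      rw [← Submodule.topologicalClosure_coe,
        span_fourierLp_closure_eq_top (T := (1 : ℝ)) (p := 2) (by norm_num), Submodule.top_coe]
    rw [h4, V.isometry.isClosedEmbedding.closure_image_eq, h6, Set.image_univ, h3]
  · change V (fourierLp (T := (1 : ℝ)) 2 (n + 1)) = _
    rw [koopman_eq]
    refine h1 _ _ ?_
    filter_upwards [coeFn_fourierLp (T := (1 : ℝ)) 2 (n + 1),
      coeFn_fourierLp (T := (1 : ℝ)) 2 n] with t e1 e2
    rw [e1, e2, fourier_add, mul_comm]

end Vale.Agent.Results.P130.BanachBasis
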