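import Vale.Agent.Lib.P130B.Out.Main

/-!
# P130: Banach's problem, the form with an orthonormal orbit

The statement uses only functions on `Y` and integrals.
-/

open MeasureTheory

theorem Vale.Agent.Results.P130.BanachOrbit.result : ∃ (Y : Type) (_ : MeasurableSpace Y)
    (_ : StandardBorelSpace Y) (μ : Measure Y) (_ : IsProbabilityMeasure μ)
    (_ : NullSingletonClass μ) (T : Y ≃ᵐ Y), MeasurePreserving T μ μ ∧
    ∃ f : Y → ℂ, MemLp f 2 μ ∧ ∫ y, f y ∂μ = 0 ∧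
      (∀ n : ℤ, P130B.corr μ T f f n = if n = 0 then 1 else 0) ∧
      ∀ g : Y → ℂ, MemLp g 2 μ → ∫ y, g y ∂μ = 0 →
        (∀ n : ℤ, P130B.corr μ T g f n = 0) → g =ᵐ[μ] 0 :=
  P130B.orbit_form P130B.mainStmt
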