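import Mathlib
import Vale.Agent.Lib.P130B.Out.Main

/-!
# P130: Banach's problem, the operator form

Some invertible measure-preserving transformation of a standard nonatomic probability space has
simple Lebesgue spectrum.
-/

open MeasureTheory Filter Topology
open scoped ENNReal

namespace Vale.Agent.Results.P130.BanachUnitary

/-- The Haar probability measure of the circle `ℝ/ℤ`; the coordinate `w` of the unit circle is
`fourier 1 : t ↦ exp (2 π i t)`. -/
noncomputable abbrev haar : Measure (AddCircle (1 : ℝ)) := AddCircle.haarAddCircle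

theorem mulW_mem (g : Lp ℂ 2 haar) : MemLp (fun t => fourier 1 t * g t) 2 haar := by
  refine (Lp.memLp g).of_le ?_ ?_
  · exact ((fourier 1).continuous.aestronglyMeasurable).mul (Lp.aestronglyMeasurable g)
  · refine Eventually.of_forall fun t => ?_
    rw [norm_mul, fourier_apply, Circle.norm_coe, one_mul]

/-- Multiplication by the coordinate `w` on complex `L²` of the circle. -/
noncomputable def mulW (g : Lp ℂ 2 haar) : Lp ℂ 2 haar :=
  MemLp.toLp (fun t => fourier 1 t * g t) (mulW_mem g)

/-- The Koopman operator `f ↦ f ∘ T` of a measure-preserving transformation, on complex `L²`. -/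
noncomputable def koopman {Y : Type} [MeasurableSpace Y] {μ : Measure Y} (T : Y ≃ᵐ Y)
    (hT : MeasurePreserving T μ μ) (f : Lp ℂ 2 μ) : Lp ℂ 2 μ :=
  MemLp.toLp (fun y => f (T y)) ((Lp.memLp f).comp_measurePreserving hT)

/-- The operator `U` restricted to the subspace `S` of the Hilbert space `H` is unitarily
equivalent to the operator `M` of the Hilbert space `K`: there is a linear isometry `V : K → H`
with range `S` and `V (M g) = U (V g)` for all `g`. -/
def UnitarilyEquivalentOn {K H : Type} [NormedAddCommGroup K] [InnerProductSpace ℂ K]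
    [NormedAddCommGroup H] [InnerProductSpace ℂ H] (M : K → K) (U : H → H) (S : Set H) : Prop :=
  ∃ V : K →ₗᵢ[ℂ] H, (∀ g, V (M g) = U (V g)) ∧ Set.range V = S

theorem koopman_eq {Y : Type} [MeasurableSpace Y] {μ : Measure Y} (T : Y ≃ᵐ Y)
    (hT : MeasurePreserving T μ μ) (f : Lp ℂ 2 μ) :
    koopman T hT f = Lp.compMeasurePreserving T hT f := by
  apply Lp.ext
  exact (MemLp.coeFn_toLp _).trans (Lp.coeFn_compMeasurePreserving f hT).symm

/-- **Banach's problem.** There are a standard nonatomic probability space `(Y, μ)` and an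
invertible measure-preserving `T : Y → Y` with simple Lebesgue spectrum: the Koopman operator of
`T` on `L²₀`, the subspace of all `f` in `L²` with integral zero, is unitarily equivalent to
multiplication by the coordinate `w` on `L²` of the circle. -/
theorem result : ∃ (Y : Type) (_ : MeasurableSpace Y) (_ : StandardBorelSpace Y)
    (μ : Measure Y) (_ : IsProbabilityMeasure μ) (_ : NullSingletonClass μ) (T : Y ≃ᵐ Y)
    (hT : MeasurePreserving T μ μ),
    UnitarilyEquivalentOn mulW (koopman T hT) {f | ∫ y, f y ∂μ = 0} := by
  obtain ⟨Y, mY, sY, μ, pμ, nμ, T, hT, V, h1, h2⟩ := P130B.mainStmt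
  refine ⟨Y, mY, sY, μ, pμ, nμ, T, hT, V, fun g => ?_, ?_⟩
  · rw [koopman_eq]
    exact h1 g (mulW g) (MemLp.coeFn_toLp _)
  · ext f
    exact h2 f

end Vale.Agent.Results.P130.BanachUnitary
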