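import Mathlib
import Vale.Agent.Lib.P130.Final

/-!
# P130: an ergodic transformation with a Lebesgue component of multiplicity one
-/

open MeasureTheory Filter Topology
open scoped ENNReal

namespace Vale.Agent.Results.P130.LebesgueMultOne

/-- The Haar probability measure of the circle `ℝ/ℤ`; the coordinate `w` of the unit circle is
`fourier 1`, and `fourier n = w ^ n` is the character `t ↦ exp (2 π i n t)`. -/
noncomputable abbrev haar : Measure (AddCircle (1 : ℝ)) := AddCircle.haarAddCircle

theorem mulW_mem (g : Lp ℂ 2 haar) : MemLp (fun t => fourier 1 t * g t) 2 haar := by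
  refine (Lp.memLp g).of_le ?_ ?_
  · exact ((fourier 1).continuous.aestronglyMeasurable).mul (Lp.aestronglyMeasurable g)
  · refine Eventually.of_forall fun t => ?_
    rw [norm_mul, fourier_apply, Circle.norm_coe, one_mul]

/-- Multiplication by the coordinate `w` on complex `L²` of the circle. -/
noncomputable def mulW (g : Lp ℂ 2 haar) : Lp ℂ 2 haar :=
  MemLp.toLp (fun t => fourier 1 t * g t) (mulW_mem g)

/-- The Koopman operator `f ↦ f ∘ T` of a measure-preserving transformation, on complex `L²`. -/
noncomputable def koopman {Y : Type} [MeasurableSpace Y] {μ : Measure Y} (T : Y ≃ᵐ Y)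
    (hT : MeasurePreserving T μ μ) (f : Lp ℂ 2 μ) : Lp ℂ 2 μ :=
  MemLp.toLp (fun y => f (T y)) ((Lp.memLp f).comp_measurePreserving hT)

/-- `σ` is the spectral measure of the vector `f` with respect to the operator `U` of a Hilbert
space: the finite measure on the circle with `∫ w ^ n dσ = ⟨f, U ^ n f⟩` for all `n ≥ 0`. -/
def IsSpectralMeasure {H : Type} [NormedAddCommGroup H] [InnerProductSpace ℂ H] (U : H → H)
    (f : H) (σ : Measure (AddCircle (1 : ℝ))) : Prop :=
  IsFiniteMeasure σ ∧ ∀ n : ℕ, ∫ t, fourier n t ∂σ = inner ℂ f (U^[n] f)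

/-- The absolutely continuous part of `U` is unitarily equivalent to `M`, and it contains every
mixing vector: there is a linear isometry `V : K → H` with `V (M g) = U (V g)` whose range
consists exactly of the vectors whose spectral measure is absolutely continuous with respect to
Haar measure; the range is orthogonal to every `U`-invariant vector, it contains every `f` with
`⟨f, U ^ n f⟩ → 0`, and the spectral measure of every vector orthogonal to the range is singular
with respect to Haar measure. -/
def ACPartEquivalent {K H : Type} [NormedAddCommGroup K] [InnerProductSpace ℂ K]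
    [NormedAddCommGroup H] [InnerProductSpace ℂ H] (M : K → K) (U : H → H) : Prop :=
  ∃ V : K →ₗᵢ[ℂ] H, (∀ g, V (M g) = U (V g)) ∧
    (∀ f, (∃ g, V g = f) ↔ ∃ σ, IsSpectralMeasure U f σ ∧ σ ≪ haar) ∧
    (∀ c g, U c = c → inner ℂ c (V g) = 0) ∧
    (∀ f, Tendsto (fun n => inner ℂ f (U^[n] f)) atTop (𝓝 0) → ∃ g, V g = f) ∧
    (∀ f, (∀ g, inner ℂ (V g) f = 0) → ∀ σ, IsSpectralMeasure U f σ → σ ⟂ₘ haar)

theorem koopman_eq {Y : Type} [MeasurableSpace Y] {μ : Measure Y} (T : Y ≃ᵐ Y)
    (hT : MeasurePreserving T μ μ) (f : Lp ℂ 2 μ) :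
    koopman T hT f = Lp.compMeasurePreserving T hT f := by
  apply Lp.ext
  exact (MemLp.coeFn_toLp _).trans (Lp.coeFn_compMeasurePreserving f hT).symm

/-- There are a standard nonatomic probability space `(Y, μ)` and an ergodic invertible
measure-preserving `T : Y → Y` whose Koopman operator has a Lebesgue component of multiplicity
one: its absolutely continuous part is unitarily equivalent to multiplication by the coordinate
on `L²` of the circle.  Moreover this component contains all mixing vectors. -/
theorem result : ∃ (Y : Type) (_ : MeasurableSpace Y) (_ : StandardBorelSpace Y)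
    (μ : Measure Y) (_ : IsProbabilityMeasure μ) (_ : NullSingletonClass μ) (T : Y ≃ᵐ Y)
    (hT : MeasurePreserving T μ μ), Ergodic T μ ∧ ACPartEquivalent mulW (koopman T hT) := by
  obtain ⟨Y, mY, sY, μ, pμ, nμ, T, hT, hE, V, h1, h2, h3, h4, h5⟩ := P130.main
  have hK : koopman T hT = fun f : Lp ℂ 2 μ => Lp.compMeasurePreserving T hT f :=
    funext (koopman_eq T hT)
  refine ⟨Y, mY, sY, μ, pμ, nμ, T, hT, hE, V, ?_, ?_, ?_, ?_, ?_⟩
  · intro g
    rw [hK]
    exact h1 g _ (MemLp.coeFn_toLp _)
  · intro f
    rw [h3 f]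
    constructor
    · rintro ⟨σ, hf, ha, hn⟩
      exact ⟨σ, ⟨hf, by rw [hK]; exact hn⟩, ha⟩
    · rintro ⟨σ, ⟨hf, hn⟩, ha⟩
      exact ⟨σ, hf, ha, by rw [hK] at hn; exact hn⟩
  · intro c g hc
    rw [koopman_eq] at hc
    obtain ⟨a, ha⟩ := hE.quasiErgodic.ae_eq_const_of_ae_eq_comp_ae (Lp.aestronglyMeasurable c)
      ((Lp.coeFn_compMeasurePreserving c hT).symm.trans (by rw [hc]))
    rw [L2.inner_def]
    have h6 : (fun y => inner ℂ (c y) (V g y)) =ᵐ[μ] fun y => (starRingEnd ℂ a) * V g y := by
      filter_upwards [ha] with y hy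
      rw [hy]
      simp [mul_comm]
    rw [integral_congr_ae h6, integral_const_mul, h2 g, mul_zero]
  · intro f hf
    rw [hK] at hf
    exact h4 f hf
  · rintro f hf σ ⟨hσ, hn⟩
    rw [hK] at hn
    exact h5 f hf σ hσ hn

end Vale.Agent.Results.P130.LebesgueMultOne
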